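import Vale.Agent.Lib.Helper9.P302.InfMain7
import Vale.Agent.Lib.Helper6.P302GW4

/-!
Bin packing instances, with all item sizes in `(1/4, 1/2]`, whose optimal number of bins
exceeds the value of the Gilmore-Gomory configuration linear program by more than `5/4`:
the difference comes arbitrarily close to `2033/1620`, and some instance reaches `627/500`.
-/

namespace Vale.Agent.Results.P302.AboveFiveFourths

open Vale.Agent.Lib.Helper3.BinPacking Vale.Agent.Lib.Helper2.Inf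

theorem result :
    (∀ ε : ℝ, 0 < ε → ∃ (n : ℕ) (a : Fin n → ℚ),
      (∀ i, 1 / 4 < a i ∧ a i ≤ 1 / 2) ∧ 2033 / 1620 - ε ≤ (opt a : ℝ) - lp a) ∧
    (∃ (n : ℕ) (a : Fin n → ℚ),
      (∀ i, 1 / 4 < a i ∧ a i ≤ 1 / 2) ∧ 627 / 500 ≤ (opt a : ℝ) - lp a ∧
        5 / 4 < (opt a : ℝ) - lp a) := by
  have hfrac : gadgetW4.FracPairs (((24 : ℕ) : ℝ) + 413 / 270) (127 / 135) 51 := by
    have h := gadgetW4_frac
    have e1 : (((6893 : ℕ) : ℝ) / ((270 : ℕ) : ℝ)) = ((24 : ℕ) : ℝ) + 413 / 270 := by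
      norm_num
    have e2 : (((254 : ℕ) : ℝ) / ((270 : ℕ) : ℝ)) = 127 / 135 := by norm_num
    rw [e1, e2] at h
    exact h
  have hlim := Vale.Agent.Lib.Helper9.P302Inf.gap_limit7 gadgetW4 24 51 1166516 (413 / 270)
    (127 / 135) rfl (by decide)
    (fun b hb => by exact_mod_cast gadgetW4_le.1 b hb)
    (fun i hi => by exact_mod_cast gadgetW4_le.2 i hi)
    gadgetW4_int hfrac (by norm_num) (by norm_num) (by norm_num)
  have hlim' : ∀ ε : ℝ, 0 < ε → ∃ (n : ℕ) (a : Fin n → ℚ),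
      (∀ i, 1 / 4 < a i ∧ a i ≤ 1 / 2) ∧ 2033 / 1620 - ε ≤ (opt a : ℝ) - lp a := by
    intro ε hε
    obtain ⟨n, a, ha, hgap⟩ := hlim ε hε
    exact ⟨n, a, ha, by linarith⟩
  refine ⟨hlim', ?_⟩
  obtain ⟨n, a, ha, hgap⟩ := hlim' (1 / 2000) (by norm_num)
  exact ⟨n, a, ha, by linarith, by linarith⟩

end Vale.Agent.Results.P302.AboveFiveFourths
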