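import Vale.Agent.Lib.Helper3.P302Rate

/-!
Bin packing instances with every prescribed value of the optimum and a difference between the
optimum and the value of the Gilmore-Gomory configuration linear program close to `4/3`.

First part: for all `j` and all `K ≥ 4 + 75 * j * 2^j` there is an instance, with all item sizes
in `(1/4, 1/2]`, whose optimum is exactly `K` and exceeds the value of the linear program by at
least `4/3 - (2/3)^j`.  Second part: for every `K ≥ 1` there is such an instance with optimum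
exactly `K` and difference at least `4/3 - 23 / sqrt K`.
-/

namespace Vale.Agent.Results.P302.ApproachingFourThirdsEveryOpt

open Vale.Agent.Lib.Helper3.BinPacking

theorem result :
    (∀ j K : ℕ, 4 + 75 * j * 2 ^ j ≤ K → ∃ (n : ℕ) (a : Fin n → ℚ),
      (∀ i, 1 / 4 < a i ∧ a i ≤ 1 / 2) ∧ opt a = K ∧
        4 / 3 - (2 / 3 : ℝ) ^ j ≤ (opt a : ℝ) - lp a) ∧
    (∀ K : ℕ, 1 ≤ K → ∃ (n : ℕ) (a : Fin n → ℚ),
      (∀ i, 1 / 4 < a i ∧ a i ≤ 1 / 2) ∧ opt a = K ∧
        4 / 3 - 23 / Real.sqrt (K : ℝ) ≤ (opt a : ℝ) - lp a) :=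
  Vale.Agent.Lib.Helper3.P302Rate.every_opt

end Vale.Agent.Results.P302.ApproachingFourThirdsEveryOpt
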