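import Vale.Agent.Lib.Helper2.P302.InfMain

/-!
Bin packing instances, with all item sizes in `(1/4, 1/2]`, whose optimal number of bins
exceeds the value of the Gilmore-Gomory configuration linear program by more than any given
number below `5/4`.
-/

namespace Vale.Agent.Results.P302.FiveFourthsLimit

open Vale.Agent.Lib.Helper3.BinPacking

theorem result : ∀ ε : ℝ, 0 < ε → ∃ (n : ℕ) (a : Fin n → ℚ),
    (∀ i, 1 / 4 < a i ∧ a i ≤ 1 / 2) ∧ 5 / 4 - ε ≤ (opt a : ℝ) - lp a :=
  Vale.Agent.Lib.Helper2.Inf.gap_limit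

end Vale.Agent.Results.P302.FiveFourthsLimit
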