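import Vale.Agent.Lib.Helper2.P302.InfRate

/-!
For every `j` a bin packing instance with `(15 j ^ 2 + 39 j + 10) / 2` items, all sizes in
`(1/4, 1/2]`, whose optimal number of bins exceeds the value of the Gilmore-Gomory
configuration linear program by at least `5/4 - 1/3 ^ j`.
-/

namespace Vale.Agent.Results.P302.FiveFourthsRate

open Vale.Agent.Lib.Helper3.BinPacking

theorem result : ∀ j : ℕ, ∃ (n : ℕ) (a : Fin n → ℚ), 2 * n = 15 * j ^ 2 + 39 * j + 10 ∧
    (∀ i, 1 / 4 < a i ∧ a i ≤ 1 / 2) ∧ opt a ≤ n ∧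
    5 / 4 - 1 / 3 ^ j ≤ (opt a : ℝ) - lp a :=
  Vale.Agent.Lib.Helper2.Inf.gap_rate

end Vale.Agent.Results.P302.FiveFourthsRate
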