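import Vale.Agent.Lib.Helper9.P302.InfWitness

/-!
For every `ε > 0` there are a bin packing instance with all sizes larger than `1/4` and at most
`1/2`, and a number `K`, such that the items cannot be packed into `K` or fewer bins while the
Gilmore-Gomory configuration linear program has a feasible solution of value at most
`K + 1 - (5/4 - ε)`.
-/

namespace Vale.Agent.Results.P302.FiveFourthsWitness

open Vale.Agent.Lib.Helper3.BinPacking

theorem result : ∀ ε : ℝ, 0 < ε → ∃ (n K : ℕ) (a : Fin n → ℚ),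
    (∀ i, 1 / 4 < a i ∧ a i ≤ 1 / 2) ∧
    (∀ k, k ≤ K → ¬ ∃ f : Fin n → Fin k, IsPacking a k f) ∧
    ∃ (m : ℕ) (cfg : Fin m → ℚ → ℕ) (w : Fin m → ℝ), IsFracCover a m cfg w ∧
      ∑ j, w j ≤ (K : ℝ) + 1 - (5 / 4 - ε) :=
  Vale.Agent.Lib.Helper9.P302Inf.witness_limit

end Vale.Agent.Results.P302.FiveFourthsWitness
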