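import Vale.Agent.Lib.Helper5.P302Top299G48Main

/-!
A bin packing instance with exactly 442 items whose optimal number of bins exceeds the value of
the Gilmore-Gomory configuration linear program by at least `344411 / 275562 = 1.24984...`.
-/

namespace Vale.Agent.Results.P302.Gap12498

open Vale.Agent.Lib.Helper3.BinPacking Vale.Agent.Lib.Helper5.P302Top299G48

theorem result : ∃ a : Fin 442 → ℚ, (∀ i, 0 < a i ∧ a i ≤ 1) ∧
    (344411 / 275562 : ℝ) ≤ (opt a : ℝ) - lp a := by
  refine ⟨hinst, hinst_pos_le, ?_⟩
  have h1 : (150 : ℝ) ≤ (opt hinst : ℝ) := by exact_mod_cast opt_hinst_ge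
  have h2 := lp_hinst_le
  linarith

end Vale.Agent.Results.P302.Gap12498
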