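import Vale.Agent.Lib.Helper8.P302Gap236

/-!
A bin packing instance with 236 items, all of size in `(1/4, 1/2]`, whose optimal number of
bins exceeds the value of the Gilmore-Gomory configuration linear program by at least
`4307 / 3456`.
-/

namespace Vale.Agent.Results.P302.Gap1Point246

open Vale.Agent.Lib.Helper3.BinPacking

theorem result : ∃ a : Fin 236 → ℚ, (∀ i, 1 / 4 < a i ∧ a i ≤ 1 / 2) ∧
    (4307 / 3456 : ℝ) ≤ (opt a : ℝ) - lp a :=
  Vale.Agent.Lib.Helper8.P302Gap236.gap236

end Vale.Agent.Results.P302.Gap1Point246
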