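import Vale.Agent.Lib.Helper3.P302Any299Asm

/-!
A bin packing instance with 299 items, all of size in `(1/4, 1/2]`, whose optimal number of
bins exceeds the value of the Gilmore-Gomory configuration linear program by at least
`607 / 486`.
-/

namespace Vale.Agent.Results.P302.Gap1Point2489

open Vale.Agent.Lib.Helper3.BinPacking

theorem result : ∃ a : Fin 299 → ℚ, (∀ i, 1 / 4 < a i ∧ a i ≤ 1 / 2) ∧
    (607 / 486 : ℝ) ≤ (opt a : ℝ) - lp a :=
  gap299

end Vale.Agent.Results.P302.Gap1Point2489
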