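import Vale.Agent.Lib.Helper8.P302Gap122

/-!
A bin packing instance (122 items) whose optimal number of bins exceeds the value of the
Gilmore-Gomory configuration linear program by at least `89 / 72`.
-/

namespace Vale.Agent.Results.P302.Gap89Over72

open Vale.Agent.Lib.Helper3.BinPacking

theorem result : ∃ (n : ℕ) (a : Fin n → ℚ), (∀ i, 0 < a i ∧ a i ≤ 1) ∧
    (89 / 72 : ℝ) ≤ (opt a : ℝ) - lp a :=
  Vale.Agent.Lib.Helper8.P302Gap122.gap122_light

end Vale.Agent.Results.P302.Gap89Over72
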