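import Vale.Agent.Lib.Helper3.P302Core
import Vale.Agent.Lib.Helper8.P302Assembly

/-!
A bin packing instance (65 items) whose optimal number of bins exceeds the value of the
Gilmore-Gomory configuration linear program by at least `29 / 24`, which is more than `6 / 5`.
-/

namespace Vale.Agent.Results.P302.GapAboveSixFifths

open Vale.Agent.Lib.Helper3.BinPacking

theorem result : ∃ (n : ℕ) (a : Fin n → ℚ), (∀ i, 0 < a i ∧ a i ≤ 1) ∧
    (29 / 24 : ℝ) ≤ (opt a : ℝ) - lp a :=
  Vale.Agent.Lib.Helper8.P302Assembly.gap_of_not_packable not_packable_63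

end Vale.Agent.Results.P302.GapAboveSixFifths
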