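import Mathlib

namespace Vale.Agent.Results.P302.LargeItems

open Finset

/-- `f` packs the `n` items with sizes `a` into `k` bins: every bin has total size at most 1. -/
def IsPacking {n : ℕ} (a : Fin n → ℚ) (k : ℕ) (f : Fin n → Fin k) : Prop :=
  ∀ b : Fin k, ∑ i ∈ Finset.univ.filter (fun i => f i = b), a i ≤ 1

/-- The least number of bins into which the items can be partitioned. -/
noncomputable def OPT {n : ℕ} (a : Fin n → ℚ) : ℕ :=
  sInf {k | ∃ f : Fin n → Fin k, IsPacking a k f}

/-- The set of distinct sizes. -/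
def sizes {n : ℕ} (a : Fin n → ℚ) : Finset ℚ := Finset.univ.image a

/-- The multiplicity of the size `σ`. -/
def mult {n : ℕ} (a : Fin n → ℚ) (σ : ℚ) : ℕ := (Finset.univ.filter (fun i => a i = σ)).card

/-- A configuration: a vector of natural numbers indexed by the distinct sizes, of total size
at most 1. -/
def Config {n : ℕ} (a : Fin n → ℚ) : Type :=
  {c : ↥(sizes a) → ℕ // ∑ σ : ↥(sizes a), (σ : ℚ) * (c σ : ℚ) ≤ 1}

/-- Feasible solutions of the configuration linear program: nonnegative weights on finitely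
many configurations covering every size at least as often as its multiplicity. -/
def IsFeasible {n : ℕ} (a : Fin n → ℚ) (z : Config a →₀ ℝ) : Prop :=
  (∀ c, 0 ≤ z c) ∧ ∀ σ : ↥(sizes a), (mult a σ : ℝ) ≤ z.sum (fun c v => (c.1 σ : ℝ) * v)

/-- The value of the Gilmore-Gomory configuration linear program. -/
noncomputable def LP {n : ℕ} (a : Fin n → ℚ) : ℝ :=
  sInf {v | ∃ z : Config a →₀ ℝ, IsFeasible a z ∧ z.sum (fun _ w => w) = v}

theorem opt_le {n : ℕ} (a : Fin n → ℚ) (hpos : ∀ i, 0 < a i) (𝔅 : Finset (Finset (Fin n)))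
    (hb : ∀ B ∈ 𝔅, ∑ i ∈ B, a i ≤ 1)
    (hcov : (Finset.univ : Finset (Fin n)) ⊆ 𝔅.biUnion id) : OPT a ≤ 𝔅.card := by
  classical
  have hex : ∀ i : Fin n, ∃ B ∈ 𝔅, i ∈ B := by
    intro i
    have h := hcov (Finset.mem_univ i)
    obtain ⟨B, hB, hiB⟩ := Finset.mem_biUnion.1 h
    exact ⟨B, hB, hiB⟩
  choose g hg1 hg2 using hex
  apply Nat.sInf_le
  refine ⟨fun i => 𝔅.equivFin ⟨g i, hg1 i⟩, ?_⟩
  intro b
  have hsub : Finset.univ.filter (fun i => 𝔅.equivFin ⟨g i, hg1 i⟩ = b)
      ⊆ (𝔅.equivFin.symm b).1 := by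
    intro i hi
    rw [Finset.mem_filter] at hi
    have h5 : (⟨g i, hg1 i⟩ : ↥𝔅) = 𝔅.equivFin.symm b := by
      rw [← hi.2]
      simp
    rw [← h5]
    exact hg2 i
  calc ∑ i ∈ Finset.univ.filter (fun i => 𝔅.equivFin ⟨g i, hg1 i⟩ = b), a i
      ≤ ∑ i ∈ (𝔅.equivFin.symm b).1, a i :=
        Finset.sum_le_sum_of_subset_of_nonneg hsub (fun i _ _ => le_of_lt (hpos i))
    _ ≤ 1 := hb _ (𝔅.equivFin.symm b).2

theorem lp_ge {n : ℕ} (a : Fin n → ℚ) (Y : ℚ → ℝ) (hY0 : ∀ σ, 0 ≤ Y σ)
    (hY : ∀ c : Config a, ∑ σ : ↥(sizes a), (c.1 σ : ℝ) * Y σ ≤ 1)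
    (z : Config a →₀ ℝ) (hz : IsFeasible a z) :
    ∑ i, Y (a i) ≤ z.sum (fun _ w => w) := by
  classical
  have h1 : ∑ i, Y (a i) = ∑ σ : ↥(sizes a), Y σ * (mult a σ : ℝ) := by
    rw [Finset.sum_coe_sort (sizes a) (fun σ => Y σ * (mult a σ : ℝ))]
    rw [← Finset.sum_fiberwise_of_maps_to (s := Finset.univ) (t := sizes a) (g := a)
      (fun i _ => Finset.mem_image_of_mem a (Finset.mem_univ i)) (fun i => Y (a i))]
    apply Finset.sum_congr rfl
    intro σ _
    rw [Finset.sum_congr rfl (fun i hi => by rw [(Finset.mem_filter.1 hi).2])]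
    rw [Finset.sum_const, nsmul_eq_mul, mult]
    ring
  rw [h1]
  calc ∑ σ : ↥(sizes a), Y σ * (mult a σ : ℝ)
      ≤ ∑ σ : ↥(sizes a), Y σ * z.sum (fun c v => (c.1 σ : ℝ) * v) :=
        Finset.sum_le_sum (fun σ _ => mul_le_mul_of_nonneg_left (hz.2 σ) (hY0 σ))
    _ = ∑ c ∈ z.support, z c * ∑ σ : ↥(sizes a), (c.1 σ : ℝ) * Y σ := by
        simp only [Finsupp.sum, Finset.mul_sum]
        rw [Finset.sum_comm]
        apply Finset.sum_congr rfl
        intro c _
        apply Finset.sum_congr rfl
        intro σ _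
        ring
    _ ≤ ∑ c ∈ z.support, z c * 1 :=
        Finset.sum_le_sum (fun c _ => mul_le_mul_of_nonneg_left (hY c) (hz.1 c))
    _ = z.sum (fun _ w => w) := by simp [Finsupp.sum]

/-- the threshold weight -/
noncomputable def thr (θ : ℚ) (σ : ℚ) : ℝ :=
  if θ ≤ σ then 1 else if σ ≤ 1 - θ then 0 else 1 / 2

theorem thr_nonneg (θ σ : ℚ) : 0 ≤ thr θ σ := by
  unfold thr
  split_ifs <;> norm_num

theorem thr_feasible {n : ℕ} (a : Fin n → ℚ) (h3 : ∀ i, 1 / 3 < a i) (θ : ℚ) (hθ : 1 / 2 < θ)
    (c : Config a) : ∑ σ : ↥(sizes a), (c.1 σ : ℝ) * thr θ σ ≤ 1 := by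
  classical
  have hc := c.2
  have hs3 : ∀ σ : ↥(sizes a), (1 / 3 : ℚ) < σ := by
    intro σ
    obtain ⟨i, _, hi⟩ := Finset.mem_image.1 σ.2
    rw [← hi]
    exact h3 i
  have hterm : ∀ σ : ↥(sizes a), (0 : ℚ) ≤ (σ : ℚ) * (c.1 σ : ℚ) := by
    intro σ
    have := hs3 σ
    have h0 : (0 : ℚ) ≤ (c.1 σ : ℚ) := Nat.cast_nonneg _
    exact mul_nonneg (by linarith) h0
  by_cases hbig : ∃ σ1 : ↥(sizes a), 0 < c.1 σ1 ∧ θ ≤ (σ1 : ℚ)
  · obtain ⟨σ1, hpos1, hθ1⟩ := hbig
    have hsplit := Finset.add_sum_erase Finset.univ (fun σ : ↥(sizes a) => (σ : ℚ) * (c.1 σ : ℚ))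
      (Finset.mem_univ σ1)
    have hrest : (0 : ℚ) ≤ ∑ σ ∈ Finset.univ.erase σ1, (σ : ℚ) * (c.1 σ : ℚ) :=
      Finset.sum_nonneg (fun σ _ => hterm σ)
    have hc1 : c.1 σ1 = 1 := by
      have h5 : ((c.1 σ1 : ℕ) : ℚ) < 2 := by
        by_contra h6
        push Not at h6
        have h7 : (σ1 : ℚ) * 2 ≤ (σ1 : ℚ) * (c.1 σ1 : ℚ) :=
          mul_le_mul_of_nonneg_left h6 (by linarith)
        linarith
      have h8 : c.1 σ1 < 2 := by exact_mod_cast h5
      omega
    have hother : ∀ σ : ↥(sizes a), σ ≠ σ1 → (c.1 σ : ℝ) * thr θ σ = 0 := by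
      intro σ hσ
      by_cases hz : c.1 σ = 0
      · rw [hz]
        simp
      · have h9 : (σ : ℚ) * (c.1 σ : ℚ) ≤ ∑ τ ∈ Finset.univ.erase σ1, (τ : ℚ) * (c.1 τ : ℚ) :=
          Finset.single_le_sum (f := fun τ : ↥(sizes a) => (τ : ℚ) * (c.1 τ : ℚ))
            (fun τ _ => hterm τ) (Finset.mem_erase.2 ⟨hσ, Finset.mem_univ σ⟩)
        have h10 : (1 : ℚ) ≤ (c.1 σ : ℚ) := by
          exact_mod_cast Nat.one_le_iff_ne_zero.2 hz
        have h11 : (σ : ℚ) ≤ (σ : ℚ) * (c.1 σ : ℚ) := by
          have := hs3 σ
          nlinarith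
        rw [hc1] at hsplit
        have h12 : (σ : ℚ) ≤ 1 - θ := by
          simp only [Nat.cast_one, mul_one] at hsplit
          linarith
        have h13 : ¬ θ ≤ (σ : ℚ) := by
          intro h
          linarith
        unfold thr
        rw [if_neg h13, if_pos h12]
        simp
    rw [Finset.sum_eq_single σ1 (fun σ _ hσ => hother σ hσ)
      (fun h => absurd (Finset.mem_univ σ1) h)]
    rw [hc1]
    unfold thr
    rw [if_pos hθ1]
    simp
  · push Not at hbig
    have hhalf : ∀ σ : ↥(sizes a), (c.1 σ : ℝ) * thr θ σ ≤ (c.1 σ : ℝ) * (1 / 2) := by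
      intro σ
      by_cases hz : c.1 σ = 0
      · rw [hz]
        simp
      · have h9 := hbig σ (Nat.pos_of_ne_zero hz)
        have h10 : thr θ σ ≤ 1 / 2 := by
          unfold thr
          rw [if_neg (not_le.2 h9)]
          split_ifs <;> norm_num
        exact mul_le_mul_of_nonneg_left h10 (Nat.cast_nonneg _)
    have hT : ∑ σ : ↥(sizes a), c.1 σ ≤ 2 := by
      by_contra hcon
      push Not at hcon
      have hex : ∃ σ0 : ↥(sizes a), 0 < c.1 σ0 := by
        by_contra h
        push Not at h
        have h0 : ∑ σ : ↥(sizes a), c.1 σ = 0 :=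
          Finset.sum_eq_zero (fun σ _ => Nat.le_zero.1 (h σ))
        omega
      obtain ⟨σ0, hσ0⟩ := hex
      have hlt : ∑ σ : ↥(sizes a), (1 / 3 : ℚ) * (c.1 σ : ℚ)
          < ∑ σ : ↥(sizes a), (σ : ℚ) * (c.1 σ : ℚ) := by
        apply Finset.sum_lt_sum
        · intro σ _
          exact mul_le_mul_of_nonneg_right (le_of_lt (hs3 σ)) (Nat.cast_nonneg _)
        · refine ⟨σ0, Finset.mem_univ _, ?_⟩
          have h10 : (0 : ℚ) < (c.1 σ0 : ℚ) := by exact_mod_cast hσ0
          exact mul_lt_mul_of_pos_right (hs3 σ0) h10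
      rw [← Finset.mul_sum] at hlt
      have h11 : ((∑ σ : ↥(sizes a), c.1 σ : ℕ) : ℚ) = ∑ σ : ↥(sizes a), (c.1 σ : ℚ) := by
        push_cast
        rfl
      have h12 : (3 : ℚ) ≤ ((∑ σ : ↥(sizes a), c.1 σ : ℕ) : ℚ) := by exact_mod_cast hcon
      rw [h11] at h12
      linarith
    have hT' : ∑ σ : ↥(sizes a), (c.1 σ : ℝ) ≤ 2 := by
      have h13 : ((∑ σ : ↥(sizes a), c.1 σ : ℕ) : ℝ) ≤ 2 := by exact_mod_cast hT
      push_cast at h13
      exact h13
    calc ∑ σ : ↥(sizes a), (c.1 σ : ℝ) * thr θ σ
        ≤ ∑ σ : ↥(sizes a), (c.1 σ : ℝ) * (1 / 2) := Finset.sum_le_sum (fun σ _ => hhalf σ)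
      _ = (∑ σ : ↥(sizes a), (c.1 σ : ℝ)) * (1 / 2) := by rw [Finset.sum_mul]
      _ ≤ 1 := by linarith

/-- the configuration consisting of one item of size `σ` -/
def unitConfig {n : ℕ} (a : Fin n → ℚ) (h1 : ∀ i, a i ≤ 1) (σ : ↥(sizes a)) : Config a :=
  ⟨fun τ => if τ = σ then 1 else 0, by
    classical
    rw [Finset.sum_eq_single σ]
    · simp only [if_true, Nat.cast_one, mul_one]
      obtain ⟨i, _, hi⟩ := Finset.mem_image.1 σ.2
      rw [← hi]
      exact h1 i
    · intro τ _ hτ
      simp [hτ]
    · intro h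
      exact absurd (Finset.mem_univ σ) h⟩

theorem feasible_nonempty {n : ℕ} (a : Fin n → ℚ) (h1 : ∀ i, a i ≤ 1) :
    ∃ z : Config a →₀ ℝ, IsFeasible a z := by
  classical
  refine ⟨∑ σ : ↥(sizes a), Finsupp.single (unitConfig a h1 σ) (mult a σ : ℝ), ?_, ?_⟩
  · intro c
    rw [Finsupp.finsetSum_apply]
    apply Finset.sum_nonneg
    intro σ _
    rw [Finsupp.single_apply]
    split_ifs
    · exact Nat.cast_nonneg _
    · exact le_refl _
  · intro τ
    rw [← Finsupp.sum_finsetSum_index]
    · have hs : ∀ σ : ↥(sizes a), (Finsupp.single (unitConfig a h1 σ) (mult a σ : ℝ)).sum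
          (fun c v => (c.1 τ : ℝ) * v) = ((unitConfig a h1 σ).1 τ : ℝ) * (mult a σ : ℝ) := by
        intro σ
        rw [Finsupp.sum_single_index]
        simp
      rw [Finset.sum_congr rfl (fun σ _ => hs σ)]
      rw [Finset.sum_eq_single τ]
      · simp [unitConfig]
      · intro σ _ hσ
        simp [unitConfig, hσ.symm]
      · intro h
        exact absurd (Finset.mem_univ τ) h
    · intro c
      simp
    · intro c b1 b2
      ring

/-- combinatorial core: bins covering `T` and a threshold certificate -/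
theorem core {n : ℕ} (a : Fin n → ℚ) (h3 : ∀ i, 1 / 3 < a i) (h1 : ∀ i, a i ≤ 1) :
    ∀ m (T : Finset (Fin n)), T.card = m →
      ∃ 𝔅 : Finset (Finset (Fin n)), (∀ B ∈ 𝔅, ∑ i ∈ B, a i ≤ 1) ∧ T ⊆ 𝔅.biUnion id ∧
        ∃ θ : ℚ, 1 / 2 < θ ∧ (𝔅.card : ℚ) ≤ (T.filter (fun i => θ ≤ a i)).card
          + (1 / 2) * (T.filter (fun i => 1 - θ < a i ∧ a i < θ)).card + 1 / 2 := by
  intro m
  induction m using Nat.strong_induction_on with
  | _ m ih =>
    intro T hT
    rcases T.eq_empty_or_nonempty with rfl | hne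
    · refine ⟨∅, by simp, by simp, 1, by norm_num, by simp⟩
    obtain ⟨x, hxT, hxmax⟩ := Finset.exists_max_image T a hne
    -- all items are in the middle for threshold 2
    have hmid : ∀ S : Finset (Fin n), (S.filter (fun i => 1 - (2 : ℚ) < a i ∧ a i < 2)) = S := by
      intro S
      apply Finset.filter_true_of_mem
      intro i _
      have := h3 i
      have := h1 i
      constructor <;> linarith
    have hnone : ∀ S : Finset (Fin n), (S.filter (fun i => (2 : ℚ) ≤ a i)) = ∅ := by
      intro S
      apply Finset.filter_false_of_mem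
      intro i _
      have := h1 i
      linarith
    by_cases hA : ∃ y ∈ T, y ≠ x ∧ a x + a y ≤ 1
    · -- pair x with y
      obtain ⟨y, hyT, hyx, hfit⟩ := hA
      have hyT' : y ∈ T.erase x := Finset.mem_erase.2 ⟨hyx, hyT⟩
      have hcard' : ((T.erase x).erase y).card < m := by
        rw [Finset.card_erase_of_mem hyT', Finset.card_erase_of_mem hxT]
        have : 0 < T.card := Finset.card_pos.2 hne
        omega
      have hcard2 : (((T.erase x).erase y).card : ℚ) + 2 = T.card := by
        rw [Finset.card_erase_of_mem hyT', Finset.card_erase_of_mem hxT]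
        have h2 : 1 < T.card := Finset.one_lt_card.2 ⟨x, hxT, y, hyT, fun h => hyx h.symm⟩
        have h3' : T.card - 1 - 1 + 2 = T.card := by omega
        exact_mod_cast h3'
      obtain ⟨𝔅', hb', hcov', θ', hθ', hbound'⟩ := ih _ hcard' _ rfl
      refine ⟨insert {x, y} 𝔅', ?_, ?_, ?_⟩
      · intro B hB
        rcases Finset.mem_insert.1 hB with rfl | hB
        · rw [Finset.sum_pair (fun h => hyx h.symm)]
          exact hfit
        · exact hb' B hB
      · intro i hi
        by_cases hix : i = x
        · exact Finset.mem_biUnion.2 ⟨{x, y}, Finset.mem_insert_self _ _, by simp [hix]⟩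
        by_cases hiy : i = y
        · exact Finset.mem_biUnion.2 ⟨{x, y}, Finset.mem_insert_self _ _, by simp [hiy]⟩
        · have := hcov' (Finset.mem_erase.2 ⟨hiy, Finset.mem_erase.2 ⟨hix, hi⟩⟩)
          obtain ⟨B, hB, hiB⟩ := Finset.mem_biUnion.1 this
          exact Finset.mem_biUnion.2 ⟨B, Finset.mem_insert_of_mem hB, hiB⟩
      · have hc : ((insert {x, y} 𝔅').card : ℚ) ≤ 𝔅'.card + 1 := by
          exact_mod_cast Finset.card_insert_le _ _
        have hsubT : (T.erase x).erase y ⊆ T :=
          (Finset.erase_subset _ _).trans (Finset.erase_subset _ _)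
        by_cases hθx : θ' ≤ a x
        · refine ⟨θ', hθ', ?_⟩
          have hA1 : (((T.erase x).erase y).filter (fun i => θ' ≤ a i)).card + 1
              ≤ (T.filter (fun i => θ' ≤ a i)).card := by
            have hsub : ((T.erase x).erase y).filter (fun i => θ' ≤ a i)
                ⊆ (T.filter (fun i => θ' ≤ a i)).erase x := by
              intro i hi
              rw [Finset.mem_filter] at hi
              have hi1 := Finset.mem_of_mem_erase hi.1
              exact Finset.mem_erase.2 ⟨Finset.ne_of_mem_erase hi1,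
                Finset.mem_filter.2 ⟨Finset.mem_of_mem_erase hi1, hi.2⟩⟩
            have h5 := Finset.card_le_card hsub
            rw [Finset.card_erase_of_mem (Finset.mem_filter.2 ⟨hxT, hθx⟩)] at h5
            have h6 : 0 < (T.filter (fun i => θ' ≤ a i)).card :=
              Finset.card_pos.2 ⟨x, Finset.mem_filter.2 ⟨hxT, hθx⟩⟩
            omega
          have hM1 : (((T.erase x).erase y).filter (fun i => 1 - θ' < a i ∧ a i < θ')).card
              ≤ (T.filter (fun i => 1 - θ' < a i ∧ a i < θ')).card :=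
            Finset.card_le_card (Finset.filter_subset_filter _ hsubT)
          have hA1' : ((((T.erase x).erase y).filter (fun i => θ' ≤ a i)).card : ℚ) + 1
              ≤ (T.filter (fun i => θ' ≤ a i)).card := by exact_mod_cast hA1
          have hM1' : ((((T.erase x).erase y).filter
              (fun i => 1 - θ' < a i ∧ a i < θ')).card : ℚ)
              ≤ (T.filter (fun i => 1 - θ' < a i ∧ a i < θ')).card := by exact_mod_cast hM1
          linarith
        · push Not at hθx
          refine ⟨2, by norm_num, ?_⟩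
          rw [hmid, hnone]
          have hA0 : ((T.erase x).erase y).filter (fun i => θ' ≤ a i) = ∅ := by
            apply Finset.filter_false_of_mem
            intro i hi
            have := hxmax i (hsubT hi)
            linarith
          rw [hA0] at hbound'
          have hM1 : ((((T.erase x).erase y).filter
              (fun i => 1 - θ' < a i ∧ a i < θ')).card : ℚ) ≤ ((T.erase x).erase y).card := by
            exact_mod_cast Finset.card_filter_le _ _
          simp only [Finset.card_empty, Nat.cast_zero] at hbound' ⊢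
          linarith
    · -- x alone
      push Not at hA
      have hcard' : (T.erase x).card < m := by
        rw [Finset.card_erase_of_mem hxT]
        have : 0 < T.card := Finset.card_pos.2 hne
        omega
      have hcard2 : ((T.erase x).card : ℚ) + 1 = T.card := by
        rw [Finset.card_erase_of_mem hxT]
        have h2 : 0 < T.card := Finset.card_pos.2 hne
        have h3' : T.card - 1 + 1 = T.card := by omega
        exact_mod_cast h3'
      obtain ⟨𝔅', hb', hcov', θ', hθ', hbound'⟩ := ih _ hcard' _ rfl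
      refine ⟨insert {x} 𝔅', ?_, ?_, ?_⟩
      · intro B hB
        rcases Finset.mem_insert.1 hB with rfl | hB
        · rw [Finset.sum_singleton]
          exact h1 x
        · exact hb' B hB
      · intro i hi
        by_cases hix : i = x
        · exact Finset.mem_biUnion.2 ⟨{x}, Finset.mem_insert_self _ _, by simp [hix]⟩
        · have := hcov' (Finset.mem_erase.2 ⟨hix, hi⟩)
          obtain ⟨B, hB, hiB⟩ := Finset.mem_biUnion.1 this
          exact Finset.mem_biUnion.2 ⟨B, Finset.mem_insert_of_mem hB, hiB⟩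
      · have hc : ((insert {x} 𝔅').card : ℚ) ≤ 𝔅'.card + 1 := by
          exact_mod_cast Finset.card_insert_le _ _
        have hsubT : T.erase x ⊆ T := Finset.erase_subset _ _
        by_cases hθx : θ' ≤ a x
        · refine ⟨θ', hθ', ?_⟩
          have hA1 : ((T.erase x).filter (fun i => θ' ≤ a i)).card + 1
              ≤ (T.filter (fun i => θ' ≤ a i)).card := by
            have hsub : (T.erase x).filter (fun i => θ' ≤ a i)
                ⊆ (T.filter (fun i => θ' ≤ a i)).erase x := by
              intro i hi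
              rw [Finset.mem_filter] at hi
              exact Finset.mem_erase.2 ⟨Finset.ne_of_mem_erase hi.1,
                Finset.mem_filter.2 ⟨Finset.mem_of_mem_erase hi.1, hi.2⟩⟩
            have h5 := Finset.card_le_card hsub
            rw [Finset.card_erase_of_mem (Finset.mem_filter.2 ⟨hxT, hθx⟩)] at h5
            have h6 : 0 < (T.filter (fun i => θ' ≤ a i)).card :=
              Finset.card_pos.2 ⟨x, Finset.mem_filter.2 ⟨hxT, hθx⟩⟩
            omega
          have hM1 : ((T.erase x).filter (fun i => 1 - θ' < a i ∧ a i < θ')).card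
              ≤ (T.filter (fun i => 1 - θ' < a i ∧ a i < θ')).card :=
            Finset.card_le_card (Finset.filter_subset_filter _ hsubT)
          have hA1' : (((T.erase x).filter (fun i => θ' ≤ a i)).card : ℚ) + 1
              ≤ (T.filter (fun i => θ' ≤ a i)).card := by exact_mod_cast hA1
          have hM1' : (((T.erase x).filter (fun i => 1 - θ' < a i ∧ a i < θ')).card : ℚ)
              ≤ (T.filter (fun i => 1 - θ' < a i ∧ a i < θ')).card := by exact_mod_cast hM1
          linarith
        · push Not at hθx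
          have hA0 : (T.erase x).filter (fun i => θ' ≤ a i) = ∅ := by
            apply Finset.filter_false_of_mem
            intro i hi
            have := hxmax i (hsubT hi)
            linarith
          rw [hA0] at hbound'
          have hM1 : (((T.erase x).filter (fun i => 1 - θ' < a i ∧ a i < θ')).card : ℚ)
              ≤ (T.erase x).card := by
            exact_mod_cast Finset.card_filter_le _ _
          simp only [Finset.card_empty, Nat.cast_zero] at hbound'
          by_cases hhalf : 1 / 2 < a x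
          · -- threshold a x
            refine ⟨a x, hhalf, ?_⟩
            -- every item of T is either of size a x or in the middle
            have hsplit : T.card ≤ (T.filter (fun i => a x ≤ a i)).card
                + (T.filter (fun i => 1 - a x < a i ∧ a i < a x)).card := by
              rw [← Finset.card_union_of_disjoint]
              · apply Finset.card_le_card
                intro i hi
                rw [Finset.mem_union, Finset.mem_filter, Finset.mem_filter]
                by_cases hix : i = x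
                · left
                  exact ⟨hi, by rw [hix]⟩
                · have h7 := hA i hi hix
                  have h8 := hxmax i hi
                  rcases lt_or_eq_of_le h8 with h9 | h9
                  · right
                    exact ⟨hi, by linarith, h9⟩
                  · left
                    exact ⟨hi, le_of_eq h9.symm⟩
              · rw [Finset.disjoint_left]
                intro i hi hi'
                rw [Finset.mem_filter] at hi hi'
                linarith [hi.2, hi'.2.2]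
            have hxA : 1 ≤ (T.filter (fun i => a x ≤ a i)).card :=
              Finset.card_pos.2 ⟨x, Finset.mem_filter.2 ⟨hxT, le_refl _⟩⟩
            have hsplit' : (T.card : ℚ) ≤ (T.filter (fun i => a x ≤ a i)).card
                + (T.filter (fun i => 1 - a x < a i ∧ a i < a x)).card := by
              exact_mod_cast hsplit
            have hxA' : (1 : ℚ) ≤ (T.filter (fun i => a x ≤ a i)).card := by
              exact_mod_cast hxA
            linarith
          · -- a x ≤ 1/2: then T = {x}
            push Not at hhalf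
            have hTx : T.erase x = ∅ := by
              rw [Finset.eq_empty_iff_forall_notMem]
              intro i hi
              have h7 := hA i (Finset.mem_of_mem_erase hi) (Finset.ne_of_mem_erase hi)
              have h8 := hxmax i (Finset.mem_of_mem_erase hi)
              linarith
            refine ⟨2, by norm_num, ?_⟩
            rw [hmid, hnone]
            rw [hTx] at hcard2 hbound'
            simp only [Finset.filter_empty, Finset.card_empty, Nat.cast_zero] at hcard2 hbound' ⊢
            have h0 : 𝔅'.card = 0 := by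
              by_contra h9
              have h10 : 1 ≤ 𝔅'.card := Nat.one_le_iff_ne_zero.2 h9
              have h11 : (1 : ℚ) ≤ 𝔅'.card := by exact_mod_cast h10
              linarith
            rw [h0] at hc
            simp only [Nat.cast_zero] at hc
            linarith

/-- **Bin packing with all items larger than one third.**  If every item size is greater than
`1/3` (and at most `1`), then `OPT(I) ≤ LP(I) + 1/2`; consequently `OPT(I) ≤ ⌈LP(I)⌉`, so the
integer round-up property, and in particular the modified integer round-up inequality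
`OPT(I) ≤ ⌈LP(I)⌉ + 1`, holds for all such instances. -/
theorem result (n : ℕ) (a : Fin n → ℚ) (h3 : ∀ i, 1 / 3 < a i) (h1 : ∀ i, a i ≤ 1) :
    (OPT a : ℝ) ≤ LP a + 1 / 2 ∧ (OPT a : ℤ) ≤ ⌈LP a⌉ := by
  classical
  obtain ⟨𝔅, hb, hcov, θ, hθ, hbound⟩ := core a h3 h1 _ Finset.univ rfl
  have hpos : ∀ i, 0 < a i := fun i => lt_trans (by norm_num) (h3 i)
  have hopt := opt_le a hpos 𝔅 hb hcov
  -- the dual value
  have hval : ∑ i, thr θ (a i) = ((Finset.univ.filter (fun i => θ ≤ a i)).card : ℝ)
      + (1 / 2) * ((Finset.univ.filter (fun i => 1 - θ < a i ∧ a i < θ)).card : ℝ) := by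
    have hpt : ∀ i, thr θ (a i) = (if θ ≤ a i then (1 : ℝ) else 0)
        + (1 / 2) * (if 1 - θ < a i ∧ a i < θ then (1 : ℝ) else 0) := by
      intro i
      unfold thr
      by_cases h5 : θ ≤ a i
      · have h6 : ¬ (1 - θ < a i ∧ a i < θ) := fun h => absurd h5 (not_le.2 h.2)
        rw [if_pos h5, if_pos h5, if_neg h6]
        ring
      · by_cases h7 : a i ≤ 1 - θ
        · have h6 : ¬ (1 - θ < a i ∧ a i < θ) := fun h => absurd h7 (not_le.2 h.1)
          rw [if_neg h5, if_pos h7, if_neg h5, if_neg h6]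
          ring
        · have h6 : 1 - θ < a i ∧ a i < θ := ⟨not_le.1 h7, not_le.1 h5⟩
          rw [if_neg h5, if_neg h7, if_neg h5, if_pos h6]
          ring
    rw [Finset.sum_congr rfl (fun i _ => hpt i), Finset.sum_add_distrib, ← Finset.mul_sum,
      Finset.sum_boole, Finset.sum_boole]
  have hlp : ((Finset.univ.filter (fun i => θ ≤ a i)).card : ℝ)
      + (1 / 2) * ((Finset.univ.filter (fun i => 1 - θ < a i ∧ a i < θ)).card : ℝ) ≤ LP a := by
    obtain ⟨z0, hz0⟩ := feasible_nonempty a h1
    refine le_csInf ⟨z0.sum (fun _ w => w), z0, hz0, rfl⟩ ?_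
    rintro v ⟨z, hz, rfl⟩
    rw [← hval]
    exact lp_ge a (thr θ) (thr_nonneg θ) (thr_feasible a h3 θ hθ) z hz
  have hmain : (OPT a : ℝ) ≤ LP a + 1 / 2 := by
    have h5 : (OPT a : ℝ) ≤ (𝔅.card : ℝ) := by exact_mod_cast hopt
    have h6 : ((𝔅.card : ℚ) : ℝ) ≤ (((Finset.univ.filter (fun i => θ ≤ a i)).card
        + (1 / 2) * (Finset.univ.filter (fun i => 1 - θ < a i ∧ a i < θ)).card + 1 / 2 : ℚ) : ℝ) :=
      by exact_mod_cast hbound
    push_cast at h6
    linarith
  refine ⟨hmain, ?_⟩
  have h7 : (OPT a : ℤ) - 1 < ⌈LP a⌉ := by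
    rw [Int.lt_ceil]
    push_cast
    linarith
  omega

end Vale.Agent.Results.P302.LargeItems
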