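import Mathlib
import Vale.Agent.Lib.Helper3.BinPacking

namespace Vale.Agent.Results.P302.SmallOpt

open Finset
open Vale.Agent.Lib.Helper3
open Vale.Agent.Lib.Helper3.BinPacking

variable {n : ℕ}



/-- the covers are a nonempty set: every item in its own configuration -/
lemma cover_exists (a : Fin n → ℚ) (h1 : ∀ i, a i ≤ 1) :
    ∃ (m : ℕ) (cfg : Fin m → ℚ → ℕ) (w : Fin m → ℝ), IsFracCover a m cfg w := by
  classical
  refine ⟨n, fun i σ => if σ = a i then 1 else 0, fun _ => 1, fun _ => zero_le_one, ?_, ?_⟩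
  · intro i
    refine ⟨?_, ?_⟩
    · intro σ hσ
      have : σ ≠ a i := by
        rintro rfl
        exact hσ (Finset.mem_image_of_mem a (Finset.mem_univ i))
      simp [this]
    · have hmem : a i ∈ sizes a := Finset.mem_image_of_mem a (Finset.mem_univ i)
      have : ∑ σ ∈ sizes a, σ * (((if σ = a i then 1 else 0 : ℕ)) : ℚ) = a i := by
        rw [Finset.sum_eq_single (a i)]
        · simp
        · intro σ _ hne; simp [hne]
        · intro h; exact absurd hmem h
      rw [this]; exact h1 i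
  · intro σ _
    have : ∑ j : Fin n, (((if σ = a j then 1 else 0 : ℕ)) : ℝ) * (1:ℝ) = (mult a σ : ℝ) := by
      unfold mult
      simp only [mul_one]
      rw [Finset.card_filter]
      push_cast
      apply Finset.sum_congr rfl
      intro j _
      by_cases h : σ = a j
      · simp [h]
      · have h' : a j ≠ σ := fun e => h e.symm
        simp [h, h']
    rw [this]

/-- weak duality for the configuration LP -/
lemma lp_ge_of_dual (a : Fin n → ℚ) (h1 : ∀ i, a i ≤ 1) (Y : ℚ → ℝ) (hY0 : ∀ σ, 0 ≤ Y σ)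
    (hY : ∀ c : ℚ → ℕ, IsConfig a c → ∑ σ ∈ sizes a, Y σ * (c σ : ℝ) ≤ 1) :
    ∑ σ ∈ sizes a, Y σ * (mult a σ : ℝ) ≤ BinPacking.lp a := by
  unfold BinPacking.lp
  apply le_csInf
  · obtain ⟨m, cfg, w, h⟩ := cover_exists a h1
    exact ⟨_, m, cfg, w, h, rfl⟩
  · rintro v ⟨m, cfg, w, ⟨hw0, hcfg, hcov⟩, rfl⟩
    calc ∑ σ ∈ sizes a, Y σ * (mult a σ : ℝ)
        ≤ ∑ σ ∈ sizes a, Y σ * ∑ j, (cfg j σ : ℝ) * w j := by
          apply Finset.sum_le_sum
          intro σ hσ
          exact mul_le_mul_of_nonneg_left (hcov σ hσ) (hY0 σ)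
      _ = ∑ j, w j * ∑ σ ∈ sizes a, Y σ * (cfg j σ : ℝ) := by
          simp only [Finset.mul_sum]
          rw [Finset.sum_comm]
          apply Finset.sum_congr rfl; intro j _
          apply Finset.sum_congr rfl; intro σ _
          ring
      _ ≤ ∑ j, w j * 1 := by
          apply Finset.sum_le_sum
          intro j _
          exact mul_le_mul_of_nonneg_left (hY (cfg j) (hcfg j)) (hw0 j)
      _ = ∑ j, w j := by simp

/-- the sum over sizes of (value at the size) times multiplicity is the sum over items -/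
lemma sum_sizes_mult (a : Fin n → ℚ) (g : ℚ → ℝ) :
    ∑ σ ∈ sizes a, g σ * (mult a σ : ℝ) = ∑ i, g (a i) := by
  classical
  unfold sizes mult
  rw [Finset.sum_comp g a]
  apply Finset.sum_congr rfl
  intro σ _
  rw [nsmul_eq_mul]; ring

/-- volume bound -/
lemma lp_ge_volume (a : Fin n → ℚ) (h1 : ∀ i, a i ≤ 1) (h0 : ∀ i, 0 < a i) :
    ((∑ i, a i : ℚ) : ℝ) ≤ BinPacking.lp a := by
  have hpos : ∀ σ ∈ sizes a, (0:ℚ) < σ := by
    intro σ hσ
    obtain ⟨i, _, rfl⟩ := Finset.mem_image.mp hσ
    exact h0 i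
  have key := lp_ge_of_dual a h1 (fun σ => max (σ : ℝ) 0) (fun σ => le_max_right _ _) (by
    intro c hc
    have h2 := hc.2
    have h3 : ((∑ σ ∈ sizes a, σ * (c σ : ℚ) : ℚ) : ℝ) ≤ 1 := by exact_mod_cast h2
    push_cast at h3
    refine le_trans (le_of_eq ?_) h3
    apply Finset.sum_congr rfl
    intro σ hσ
    have : (0:ℝ) < (σ : ℝ) := by exact_mod_cast hpos σ hσ
    rw [max_eq_left this.le])
  rw [sum_sizes_mult a (fun σ => max (σ : ℝ) 0)] at key
  refine le_trans (le_of_eq ?_) key
  push_cast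
  apply Finset.sum_congr rfl
  intro i _
  have : (0:ℝ) < (a i : ℝ) := by exact_mod_cast h0 i
  rw [max_eq_left this.le]

/-- bound by the number of items larger than one half -/
lemma lp_ge_big (a : Fin n → ℚ) (h1 : ∀ i, a i ≤ 1) (h0 : ∀ i, 0 < a i) :
    (((univ.filter (fun i => 1 / 2 < a i)).card : ℕ) : ℝ) ≤ BinPacking.lp a := by
  classical
  have hpos : ∀ σ ∈ sizes a, (0:ℚ) < σ := by
    intro σ hσ
    obtain ⟨i, _, rfl⟩ := Finset.mem_image.mp hσ
    exact h0 i
  have key := lp_ge_of_dual a h1 (fun σ => if 1 / 2 < σ then (1:ℝ) else 0)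
    (fun σ => by split_ifs <;> norm_num) (by
    intro c hc
    have h2 := hc.2
    by_contra hcon
    push Not at hcon
    -- the number of big items in c, as a natural number
    have e1 : ∑ σ ∈ sizes a, (if 1 / 2 < σ then (1:ℝ) else 0) * (c σ : ℝ)
        = ((∑ σ ∈ (sizes a).filter (fun σ => 1 / 2 < σ), c σ : ℕ) : ℝ) := by
      rw [Finset.sum_filter]
      push_cast
      apply Finset.sum_congr rfl
      intro σ _
      split_ifs <;> simp
    rw [e1] at hcon
    have hT : 2 ≤ ∑ σ ∈ (sizes a).filter (fun σ => 1 / 2 < σ), c σ := by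
      have : (1:ℝ) < ((∑ σ ∈ (sizes a).filter (fun σ => 1 / 2 < σ), c σ : ℕ) : ℝ) := hcon
      have : 1 < ∑ σ ∈ (sizes a).filter (fun σ => 1 / 2 < σ), c σ := by exact_mod_cast this
      omega
    have hne : ∑ σ ∈ (sizes a).filter (fun σ => 1 / 2 < σ), c σ ≠ 0 := by omega
    obtain ⟨σ₀, hσ₀, hcσ₀⟩ := Finset.exists_ne_zero_of_sum_ne_zero hne
    have hσ₀big : 1 / 2 < σ₀ := (Finset.mem_filter.mp hσ₀).2
    -- volume of c
    have hvol : (1:ℚ) < ∑ σ ∈ sizes a, σ * (c σ : ℚ) := by
      have hsub : ∑ σ ∈ (sizes a).filter (fun σ => 1 / 2 < σ), σ * (c σ : ℚ)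
          ≤ ∑ σ ∈ sizes a, σ * (c σ : ℚ) := by
        apply Finset.sum_le_sum_of_subset_of_nonneg (Finset.filter_subset _ _)
        intro σ hσ _
        exact mul_nonneg (hpos σ hσ).le (Nat.cast_nonneg _)
      have hlt : ∑ σ ∈ (sizes a).filter (fun σ => 1 / 2 < σ), (1 / 2 : ℚ) * (c σ : ℚ)
          < ∑ σ ∈ (sizes a).filter (fun σ => 1 / 2 < σ), σ * (c σ : ℚ) := by
        apply Finset.sum_lt_sum
        · intro σ hσ
          have : 1 / 2 < σ := (Finset.mem_filter.mp hσ).2
          exact mul_le_mul_of_nonneg_right this.le (Nat.cast_nonneg _)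
        · refine ⟨σ₀, hσ₀, ?_⟩
          have : (0:ℚ) < (c σ₀ : ℚ) := by exact_mod_cast Nat.pos_of_ne_zero hcσ₀
          exact mul_lt_mul_of_pos_right hσ₀big this
      have hhalf : ∑ σ ∈ (sizes a).filter (fun σ => 1 / 2 < σ), (1 / 2 : ℚ) * (c σ : ℚ)
          = (1 / 2 : ℚ) * ((∑ σ ∈ (sizes a).filter (fun σ => 1 / 2 < σ), c σ : ℕ) : ℚ) := by
        push_cast; rw [Finset.mul_sum]
      have hT' : (2:ℚ) ≤ ((∑ σ ∈ (sizes a).filter (fun σ => 1 / 2 < σ), c σ : ℕ) : ℚ) := by
        exact_mod_cast hT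
      rw [hhalf] at hlt
      linarith
    linarith)
  rw [sum_sizes_mult a (fun σ => if 1 / 2 < σ then (1:ℝ) else 0)] at key
  refine le_trans (le_of_eq ?_) key
  rw [Finset.card_filter]
  push_cast
  rfl




/-- packing lemma: a set of items of total size at most (k+1)/2 containing at most k items larger
than one half can be packed into k bins -/
lemma pack_exists (a : Fin n → ℚ) (h0 : ∀ i, 0 < a i) (h1 : ∀ i, a i ≤ 1) (k : ℕ) (hk : 1 ≤ k) :
    ∀ s : Finset (Fin n), (∑ i ∈ s, a i ≤ ((k : ℚ) + 1) / 2) →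
      ((s.filter (fun i => 1 / 2 < a i)).card ≤ k) →
      ∃ f : Fin n → Fin k, ∀ b : Fin k, ∑ i ∈ s.filter (fun i => f i = b), a i ≤ 1 := by
  classical
  intro s
  induction s using Finset.strongInduction with
  | H s ih =>
    intro hvol hbig
    by_cases hs : s = ∅
    · subst hs
      exact ⟨fun _ => ⟨0, hk⟩, fun b => by simp⟩
    have hsne : s.Nonempty := Finset.nonempty_iff_ne_empty.mpr hs
    obtain ⟨i₀, hi₀, hmin⟩ := Finset.exists_min_image s a hsne
    by_cases hsmall : a i₀ ≤ 1 / 2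
    · -- remove the smallest item, pack, reinsert
      have hss : s.erase i₀ ⊂ s := Finset.erase_ssubset hi₀
      have hvol' : ∑ i ∈ s.erase i₀, a i ≤ ((k : ℚ) + 1) / 2 := by
        have := Finset.add_sum_erase s a hi₀
        have := h0 i₀
        linarith
      have hbig' : ((s.erase i₀).filter (fun i => 1 / 2 < a i)).card ≤ k :=
        le_trans (Finset.card_le_card (Finset.filter_subset_filter _ (Finset.erase_subset _ _))) hbig
      obtain ⟨f, hf⟩ := ih (s.erase i₀) hss hvol' hbig'
      have hex : ∃ b : Fin k, ∑ i ∈ (s.erase i₀).filter (fun i => f i = b), a i ≤ 1 - a i₀ := by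
        by_contra hcon
        push Not at hcon
        have hne : (univ : Finset (Fin k)).Nonempty := ⟨⟨0, hk⟩, Finset.mem_univ _⟩
        have h2 : ∑ _b : Fin k, (1 - a i₀) < ∑ b : Fin k, ∑ i ∈ (s.erase i₀).filter (fun i => f i = b), a i :=
          Finset.sum_lt_sum_of_nonempty hne (fun b _ => hcon b)
        have h3 : ∑ b : Fin k, ∑ i ∈ (s.erase i₀).filter (fun i => f i = b), a i = ∑ i ∈ s.erase i₀, a i :=
          Finset.sum_fiberwise _ _ _
        rw [h3] at h2
        simp only [Finset.sum_const, Finset.card_univ, Fintype.card_fin, nsmul_eq_mul] at h2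
        have h4 := Finset.add_sum_erase s a hi₀
        have hk' : (1:ℚ) ≤ (k : ℚ) := by exact_mod_cast hk
        nlinarith
      obtain ⟨b₀, hb₀⟩ := hex
      refine ⟨Function.update f i₀ b₀, ?_⟩
      intro b
      by_cases hb : b = b₀
      · subst hb
        have : s.filter (fun i => Function.update f i₀ b i = b)
            = insert i₀ ((s.erase i₀).filter (fun i => f i = b)) := by
          ext i
          simp only [Finset.mem_filter, Finset.mem_insert, Finset.mem_erase]
          by_cases hi : i = i₀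
          · subst hi; simp [hi₀]
          · simp [hi]
        rw [this, Finset.sum_insert (by simp)]
        linarith
      · have : s.filter (fun i => Function.update f i₀ b₀ i = b)
            = (s.erase i₀).filter (fun i => f i = b) := by
          ext i
          simp only [Finset.mem_filter, Finset.mem_erase]
          by_cases hi : i = i₀
          · subst hi
            simp only [Function.update_self, ne_eq, not_true_eq_false, false_and, iff_false, not_and]
            intro _ h; exact hb h.symm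
          · simp [hi]
        rw [this]
        exact le_trans (hf b) (le_refl _)
    · -- all items are larger than one half: one item per bin
      push Not at hsmall
      have hall : s.filter (fun i => 1 / 2 < a i) = s := by
        apply Finset.filter_true_of_mem
        intro i hi
        exact lt_of_lt_of_le hsmall (hmin i hi)
      rw [hall] at hbig
      have hcard : Fintype.card s ≤ Fintype.card (Fin k) := by
        simpa using hbig
      obtain ⟨e⟩ := Function.Embedding.nonempty_of_card_le hcard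
      refine ⟨fun i => if h : i ∈ s then e ⟨i, h⟩ else ⟨0, hk⟩, ?_⟩
      intro b
      have hle1 : (s.filter (fun i => (if h : i ∈ s then e ⟨i, h⟩ else ⟨0, hk⟩) = b)).card ≤ 1 := by
        rw [Finset.card_le_one]
        intro i hi j hj
        rw [Finset.mem_filter] at hi hj
        have hi2 := hi.2
        have hj2 := hj.2
        rw [dif_pos hi.1] at hi2
        rw [dif_pos hj.1] at hj2
        have := e.injective (hi2.trans hj2.symm)
        exact congrArg Subtype.val this
      calc ∑ i ∈ s.filter (fun i => (if h : i ∈ s then e ⟨i, h⟩ else ⟨0, hk⟩) = b), a i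
          ≤ ∑ _i ∈ s.filter (fun i => (if h : i ∈ s then e ⟨i, h⟩ else ⟨0, hk⟩) = b), (1:ℚ) :=
            Finset.sum_le_sum (fun i _ => h1 i)
        _ = ((s.filter (fun i => (if h : i ∈ s then e ⟨i, h⟩ else ⟨0, hk⟩) = b)).card : ℚ) := by simp
        _ ≤ 1 := by exact_mod_cast hle1

/-- the main step: small LP value forces a packing into k bins -/
lemma opt_le_of_lp_le (a : Fin n → ℚ) (h0 : ∀ i, 0 < a i) (h1 : ∀ i, a i ≤ 1) (k : ℕ) (hk : 1 ≤ k)
    (hlp : BinPacking.lp a ≤ ((k : ℝ) + 1) / 2) : opt a ≤ k := by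
  have hv := lp_ge_volume a h1 h0
  have hb := lp_ge_big a h1 h0
  have hvol : ∑ i ∈ (univ : Finset (Fin n)), a i ≤ ((k : ℚ) + 1) / 2 := by
    have : ((∑ i, a i : ℚ) : ℝ) ≤ (((k : ℚ) + 1) / 2 : ℚ) := by
      push_cast; push_cast at hv; linarith
    exact_mod_cast this
  have hbig : ((univ : Finset (Fin n)).filter (fun i => 1 / 2 < a i)).card ≤ k := by
    have h2 : (((univ.filter (fun i => 1 / 2 < a i)).card : ℕ) : ℝ) ≤ ((k : ℝ) + 1) / 2 := le_trans hb hlp
    have hk' : (1:ℝ) ≤ (k : ℝ) := by exact_mod_cast hk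
    have h3 : (((univ.filter (fun i => 1 / 2 < a i)).card : ℕ) : ℝ) ≤ (k : ℝ) := by linarith
    exact_mod_cast h3
  obtain ⟨f, hf⟩ := pack_exists a h0 h1 k hk univ hvol hbig
  unfold opt
  apply Nat.sInf_le
  exact ⟨f, hf⟩


/-- For every bin packing instance with item sizes in (0, 1]:
(1) for every k at least 1, if the configuration LP value is at most (k+1)/2 then OPT is at most k;
(2) if the LP value is at most 5/2 or OPT is at most 4, then OPT is at most ceil(LP) + 1;
(3) if OPT is at least 2, then OPT - LP is less than OPT / 2. -/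
theorem result (n : ℕ) (a : Fin n → ℚ) (h0 : ∀ i, 0 < a i) (h1 : ∀ i, a i ≤ 1) :
    (∀ k : ℕ, 1 ≤ k → BinPacking.lp a ≤ ((k : ℝ) + 1) / 2 → opt a ≤ k) ∧
    ((BinPacking.lp a ≤ 5 / 2 ∨ opt a ≤ 4) → (opt a : ℤ) ≤ ⌈BinPacking.lp a⌉ + 1) ∧
    (2 ≤ opt a → (opt a : ℝ) - BinPacking.lp a < (opt a : ℝ) / 2) := by
  have key : ∀ k : ℕ, 1 ≤ k → BinPacking.lp a ≤ ((k : ℝ) + 1) / 2 → opt a ≤ k :=
    fun k hk hlp => opt_le_of_lp_le a h0 h1 k hk hlp
  have hL0 : (0:ℝ) ≤ BinPacking.lp a := by
    have hv := lp_ge_volume a h1 h0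
    have : (0:ℚ) ≤ ∑ i, a i := Finset.sum_nonneg (fun i _ => (h0 i).le)
    have : (0:ℝ) ≤ ((∑ i, a i : ℚ) : ℝ) := by exact_mod_cast this
    linarith
  refine ⟨key, ?_, ?_⟩
  · intro hyp
    by_cases hA : BinPacking.lp a ≤ 1
    · have h := key 1 (le_refl 1) (by norm_num; exact hA)
      have hc : (0:ℤ) ≤ ⌈BinPacking.lp a⌉ := Int.ceil_nonneg hL0
      have : (opt a : ℤ) ≤ 1 := by exact_mod_cast h
      linarith
    · push Not at hA
      have hc2 : (2:ℤ) ≤ ⌈BinPacking.lp a⌉ := by
        have : (1:ℤ) < ⌈BinPacking.lp a⌉ := Int.lt_ceil.mpr (by exact_mod_cast hA)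
        linarith
      by_cases hB : BinPacking.lp a ≤ 2
      · have h := key 3 (by norm_num) (by norm_num; exact hB)
        have : (opt a : ℤ) ≤ 3 := by exact_mod_cast h
        linarith
      · push Not at hB
        have hc3 : (3:ℤ) ≤ ⌈BinPacking.lp a⌉ := by
          have : (2:ℤ) < ⌈BinPacking.lp a⌉ := Int.lt_ceil.mpr (by exact_mod_cast hB)
          linarith
        have h4 : opt a ≤ 4 := by
          rcases hyp with h | h
          · exact key 4 (by norm_num) (by norm_num; linarith)
          · exact h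
        have : (opt a : ℤ) ≤ 4 := by exact_mod_cast h4
        linarith
  · intro h2
    by_contra hcon
    push Not at hcon
    have hk : 1 ≤ opt a - 1 := by omega
    have hcast : ((opt a - 1 : ℕ) : ℝ) = (opt a : ℝ) - 1 := by
      rw [Nat.cast_sub (by omega)]; simp
    have h := key (opt a - 1) hk (by rw [hcast]; linarith)
    omega

end Vale.Agent.Results.P302.SmallOpt
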